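import Vale.Agent.P092.H589.K2a
import Vale.Agent.P092.H411.CellsU
import Vale.Agent.P092.H933.LocF

/-!
P092, TEAM N, block [N-K] (helper914), part 5: the labels (`H589.K2.Cells`) of every local field.
-/

set_option linter.all false

open Topology MeasureTheory

namespace Vale.Agent.P092.H914

open Vale.Agent.P092.H589.K2 (Cells cellsR)

/-- labels pulled back by an isometric homomorphism -/
noncomputable def cellsPull {𝕜 𝕜' : Type} [NormedField 𝕜] [NormedField 𝕜'] [MeasurableSpace 𝕜]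
    [BorelSpace 𝕜] [MeasurableSpace 𝕜'] [BorelSpace 𝕜'] (c : Cells 𝕜') (τ : 𝕜 →+* 𝕜')
    (hτ : ∀ x, ‖τ x‖ = ‖x‖) : Cells 𝕜 where
  T := c.T
  lab m x := c.lab m (τ x)
  nest m x y h := c.nest m _ _ h
  small m x y h := by
    have h1 := c.small m _ _ h
    rwa [← map_sub, hτ] at h1
  count R := by
    obtain ⟨M, hM⟩ := c.count R
    refine ⟨M, fun m x => ?_⟩
    obtain ⟨F, hF, h⟩ := hM m (τ x)
    refine ⟨F, hF, fun y hy => h _ ?_⟩
    rwa [← map_sub, hτ]
  meas m t := by
    have hc : Continuous τ := by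
      refine (AddMonoidHomClass.isometry_of_norm τ hτ).continuous
    exact hc.measurable (c.meas m t)

/-- labels of an ultrametric local field -/
def cellsU (𝕜 : Type) [NontriviallyNormedField 𝕜] [IsUltrametricDist 𝕜] [ProperSpace 𝕜]
    [MeasurableSpace 𝕜] [BorelSpace 𝕜] : Cells 𝕜 where
  T := Set 𝕜
  lab := H411.CellsU.lab
  nest m x y h := H411.CellsU.nest h
  small m x y h := H411.CellsU.small h
  count R := H411.CellsU.count R
  meas m t := H411.CellsU.meas m t

/-- the two cases of a local field -/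
theorem loc_or {k : Type} [NontriviallyNormedField k] (hk : H933.LocK k) :
    (∃ τ : k →+* ℂ, ∀ x, ‖τ x‖ = ‖x‖) ∨ IsUltrametricDist k := by
  rcases hk with ⟨φ, h⟩ | ⟨φ, h⟩ | h
  · refine Or.inl ⟨Complex.ofRealHom.comp (φ : k →+* ℝ), fun x => ?_⟩
    change ‖((φ x : ℝ) : ℂ)‖ = ‖x‖
    rw [Complex.norm_real, h]
  · exact Or.inl ⟨(φ : k →+* ℂ), h⟩
  · exact Or.inr h

/-- labels of a local field -/
theorem exists_cells {k : Type} [NontriviallyNormedField k] [ProperSpace k] [MeasurableSpace k]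
    [BorelSpace k] (hk : (∃ τ : k →+* ℂ, ∀ x, ‖τ x‖ = ‖x‖) ∨ IsUltrametricDist k) :
    Nonempty (Cells k) := by
  rcases hk with ⟨τ, h⟩ | h
  · exact ⟨cellsPull (cellsR ℂ) τ h⟩
  · exact ⟨cellsU k⟩

end Vale.Agent.P092.H914
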