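import Vale.Agent.P092.H914.NJBr
import Vale.Agent.P092.H835.NFSL
import Vale.Agent.P092.H835.PlGr
import Vale.Agent.P092.H589.K2v
import Vale.Agent.P092.H589.K2a
import Vale.Agent.P092.H604.Kp

/-!
P092, TEAM N, block [N-K] (helper914), part 4: the estimate for one shell and one pivot (`ShStmt`)
from the abstract estimate `k2` of helper589.
-/

set_option linter.all false

open scoped InnerProductSpace ENNReal LinearAlgebra.Projectivization ZeroAtInfty Matrix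
open Filter Topology ContinuousLinearMap MeasureTheory TopologicalSpace

namespace Vale.Agent.P092.H914

open Vale.Agent.P092.SN
open Vale.Agent.P092.RC (Cm TRN Moore GG PG YY y0 ct)
open Vale.Agent.P092.H100.Gr (Gr incG incG_closed)
open Vale.Agent.P092.H644.Gr3 (p1 hyp p1H p1_le_hyp p1_cont)
open Vale.Agent.P092.H87.N (nmn Attn taun yy cl)
open Vale.Agent.P092.H464 (Pv CI)
open Vale.Agent.P092.H589.K2 (Nrm Tame Opf)
open Vale.Agent.P092.H589.Mu (Cap)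
open Vale.Agent.P092.H835.PlF (Alt w3 sq)
open Vale.Agent.P092.H835.NF (Dm rr nfsl)
open Vale.Agent.P092.H835.PlGr (plk plH plH_surj plk_cont plk_smul rep_alt mem_iff lam2)
open Vale.Agent.P092.H820 (pj wd)

/-- the abstract estimate (statement of helper589's `k2`, the cells of the field fixed) -/
def K2Stmt (𝕜 : Type) [NontriviallyNormedField 𝕜] [MeasurableSpace 𝕜] : Prop :=
  ∀ {ι : Type} [Fintype ι] [DecidableEq ι] (K : Type) [NormedAddCommGroup K]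
    [InnerProductSpace ℂ K] [CompleteSpace K] {φ : (ι × ι → 𝕜) → ℂ}, Tame K φ →
    ∀ C₁ : ℝ, 1 ≤ C₁ → ∃ C : ℝ, 0 ≤ C ∧
    ∀ (X Y : Type) [MeasurableSpace X] [MeasurableSpace Y] (s : X → ι → 𝕜)
      (p : Y → ι × ι → 𝕜), Measurable s → Measurable p → (∀ x, Nrm (s x)) → (∀ y, Nrm (p y)) →
      (∀ y, Alt (p y)) → ∀ (Inc : X → Y → Prop), (∀ x y, Inc x y → w3 (s x) (p y) = 0) →
      ∀ (Pb Pz : Set X → (K →L[ℂ] K)) (Ls Ln : Set Y → (K →L[ℂ] K)), Pv Pb → Pv Pz → Pv Ls →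
      Pv Ln → CI Inc Pb Ln → CI Inc Pz Ln → CI Inc Pz Ls →
      ∀ (κ : Type) (S : Finset κ) (i : ι) (η : κ → ι → 𝕜) (ϖ : κ → 𝕜)
        (A A' : κ → Matrix ι ι 𝕜) (r : ℝ), 0 < r → r ≤ 1 → (∀ k ∈ S, η k i = 1) →
        (∀ k ∈ S, ‖η k‖ ≤ C₁) → (∀ k ∈ S, r ≤ C₁ * ‖ϖ k‖ ∧ ‖ϖ k‖ ≤ C₁ * r) →
        (∀ k ∈ S, A' k * A k = 1) → (∀ k ∈ S, ∀ a b, ‖A k a b‖ ≤ C₁ ∧ ‖A' k a b‖ ≤ C₁) →
      ∀ (B : κ → Set X), (∀ k ∈ S, MeasurableSet (B k)) →
        (∀ k ∈ S, ∀ x ∈ B k, s x i ≠ 0 ∧ ‖(s x i)⁻¹ • s x - η k‖ ≤ C₁ * r) →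
        (∀ k ∈ S, MeasurableSet {y | ∃ x ∈ B k, Inc x y}) →
      ∀ (E W : κ → (K →L[ℂ] K)) (F : κ → Y → ℂ) (N : ℝ), 0 ≤ N →
        (∀ k ∈ S, E k * Pb (B k) = E k) →
        (∀ k ∈ S, ∀ A, MeasurableSet A → E k * Ln A = Ln A * E k) → Cap S E N →
        (∀ k ∈ S, ∀ y, F k y = φ (sq (A k * Dm i (η k) (ϖ k)) *ᵥ p y)) →
        (∀ k ∈ S, Measurable (F k)) → (∀ k ∈ S, Opf Ls (F k) (W k)) →
        (∀ k ∈ S, ∀ A, MeasurableSet A → W k * Pz A = Pz A * W k) →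
        Cap S (fun k => E k * W k) (C * (1 + Real.log (1 / r)) ^ 2 * N)

/-- measurable normalised sections -/
def SecStmt (𝕜 : Type) [NontriviallyNormedField 𝕜] [MeasurableSpace 𝕜] : Prop :=
  ∀ (β : Type) [Fintype β] [MeasurableSpace (ℙ 𝕜 (β → 𝕜))] [BorelSpace (ℙ 𝕜 (β → 𝕜))],
    ∃ s : ℙ 𝕜 (β → 𝕜) → β → 𝕜, Measurable s ∧ (∀ x, Nrm (s x)) ∧
      ∀ x, ∃ h, Projectivization.mk 𝕜 (s x) h = x

/-- continuous functions are operators of the calculus -/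
def OpfStmt : Prop :=
  ∀ (K Y : Type) [NormedAddCommGroup K] [InnerProductSpace ℂ K] [CompleteSpace K]
    [TopologicalSpace Y] [CompactSpace Y] [MetrizableSpace Y] [MeasurableSpace Y] [BorelSpace Y]
    (φ : C(Y, ℂ) →⋆ₐ[ℂ] (K →L[ℂ] K)) (F : C(Y, ℂ)), Opf (H466.pv φ) F (φ F)

/-- the continuous functions given by a tame function of the representatives -/
def TD (k : Type) [NontriviallyNormedField k] (β : Type) [Fintype β] : Set C(ℙ k (β → k), ℂ) :=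
  {G | ∃ φ : (β → k) → ℂ, (∀ (K : Type) [NormedAddCommGroup K] [InnerProductSpace ℂ K]
    [CompleteSpace K], Tame K φ) ∧ ∀ v hv, G (Projectivization.mk k v hv) = φ v}

theorem dense_image {k : Type} [NontriviallyNormedField k] [ProperSpace k] {N : ℕ}
    (hd : closure (Submodule.span ℂ (TD k (Fin (N + 1) × Fin (N + 1))) :
      Set C(ℙ k (Fin (N + 1) × Fin (N + 1) → k), ℂ)) = Set.univ) :
    closure (Submodule.span ℂ (plH '' TD k (Fin (N + 1) × Fin (N + 1))) :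
      Set (CG k N 2)) = Set.univ := by
  have h1 : ((plH : C(ℙ k (Fin (N + 1) × Fin (N + 1) → k), ℂ) →⋆ₐ[ℂ] CG k N 2) ''
      (Submodule.span ℂ (TD k (Fin (N + 1) × Fin (N + 1))) : Set _)) ⊆
      (Submodule.span ℂ (plH '' TD k (Fin (N + 1) × Fin (N + 1))) : Set (CG k N 2)) := by
    rintro _ ⟨F, hF, rfl⟩
    have h2 := Submodule.mem_map_of_mem
      (f := ((plH : C(ℙ k (Fin (N + 1) × Fin (N + 1) → k), ℂ) →⋆ₐ[ℂ] CG k N 2) :
        C(ℙ k (Fin (N + 1) × Fin (N + 1) → k), ℂ) →ₗ[ℂ] CG k N 2)) hF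
    rw [Submodule.map_span] at h2
    exact h2
  have hc : Continuous (plH : C(ℙ k (Fin (N + 1) × Fin (N + 1) → k), ℂ) →⋆ₐ[ℂ] CG k N 2) :=
    ContinuousMap.continuous_precomp _
  refine Set.eq_univ_of_univ_subset ?_
  intro F _
  obtain ⟨F', rfl⟩ := plH_surj F
  have h3 : F' ∈ closure (Submodule.span ℂ (TD k (Fin (N + 1) × Fin (N + 1))) :
      Set C(ℙ k (Fin (N + 1) × Fin (N + 1) → k), ℂ)) := by rw [hd]; trivial
  exact closure_mono h1 (image_closure_subset_closure_image hc ⟨F', h3, rfl⟩)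

theorem ct_ct' {k : Type} [NontriviallyNormedField k] {N : ℕ} (g : GG k N) : ct (ct g) = g := by
  apply Subtype.ext
  have e : (ct g)⁻¹ = ct g⁻¹ := (map_inv ct g).symm
  change (((ct g)⁻¹).1)ᵀ = g.1
  rw [e]
  change (((g⁻¹)⁻¹).1ᵀ)ᵀ = g.1
  rw [_root_.inv_inv, Matrix.transpose_transpose]

theorem p1_smul' {k : Type} [NontriviallyNormedField k] {N : ℕ} (g : GG k N) (x : YY k N) :
    p1 (g • x) = g • p1 x := Subtype.ext (H644.Gr3.p1_smul g x)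

theorem tsupport_fp {k : Type} [NontriviallyNormedField k] [ProperSpace k] {N : ℕ}
    (f : CG k N 1) {x : YY k N} (hx : x ∈ tsupport (fp f)) : p1 x ∈ tsupport f :=
  tsupport_comp_subset_preimage (f : Gr k (Fin (N + 1)) 1 → ℂ) p1_cont hx

theorem tsupport_act {k : Type} [NontriviallyNormedField k] [ProperSpace k] {N j : ℕ}
    (g : GG k N) (f : CG k N j) {x : Gr k (Fin (N + 1)) j} (hx : x ∈ tsupport (actG g⁻¹ f)) :
    g • x ∈ tsupport f := by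
  have h := tsupport_comp_subset_preimage (f : Gr k (Fin (N + 1)) j → ℂ)
    (continuous_const_smul (g⁻¹)⁻¹) (a := x) hx
  rw [Set.mem_preimage, _root_.inv_inv] at h
  exact h

theorem sq_smul' {k : Type} [NontriviallyNormedField k] {ι : Type} [Fintype ι] (c : k)
    (M : Matrix ι ι k) : H835.PlF.sq (c • M) = (c * c) • H835.PlF.sq M := by
  ext ⟨a, b⟩ ⟨a', b'⟩
  simp only [H835.PlF.sq, Matrix.kroneckerMap_apply, Matrix.smul_apply, smul_eq_mul]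
  ring

/-- from some shell on the cells are small -/
theorem exists_shell {N : ℕ} (C : ℝ) (hC : 1 ≤ C) : ∃ s₀ : ℕ, ∀ s : ℕ, s₀ ≤ s →
    C * rr N s ≤ 1 / 2 := by
  refine ⟨⌈Real.log (2 * C)⌉₊, fun s hs => ?_⟩
  have h1 : Real.log (2 * C) ≤ s := (Nat.le_ceil _).trans (by exact_mod_cast hs)
  have h2 : 2 * C ≤ Real.exp s := (Real.log_le_iff_le_exp (by positivity)).1 h1
  have h3 : rr N s ≤ 1 / Real.exp s := by
    unfold rr
    refine one_div_le_one_div_of_le (Real.exp_pos _) ?_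
    exact le_mul_of_one_le_right (Real.exp_pos _).le (Real.one_le_exp (by positivity))
  calc C * rr N s ≤ C * (1 / Real.exp s) := by gcongr
    _ ≤ C * (1 / (2 * C)) := by
        refine mul_le_mul_of_nonneg_left (one_div_le_one_div_of_le (by positivity) h2)
          (by positivity)
    _ = 1 / 2 := by field_simp

theorem log_rr {N : ℕ} (hN : 1 ≤ N) (s : ℕ) : 1 + Real.log (1 / rr N s) ≤ 2 * (1 + s) := by
  rw [H835.NF.rr_eq, one_div, ← Real.exp_neg, neg_neg, Real.log_exp]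
  have h1 : (s : ℝ) / N ≤ s := div_le_self (Nat.cast_nonneg _) (by exact_mod_cast hN)
  linarith

/-- **The estimate for one shell and one pivot.** -/
theorem sh_of_k2 {k : Type} [NontriviallyNormedField k] [ProperSpace k] [MeasurableSpace k]
    [BorelSpace k] (hk : K2Stmt k) (hs : SecStmt k) (ho : OpfStmt)
    (hd : ∀ (β : Type) [Fintype β],
      closure (Submodule.span ℂ (TD k β) : Set C(ℙ k (β → k), ℂ)) = Set.univ) : ShStmt k := by
  classical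
  intro N hN
  refine ⟨plH '' TD k (Fin (N + 1) × Fin (N + 1)), dense_image (hd _), ?_⟩
  intro Γ K _ _ _ q Z hud b z l ν hzl hzν hbν R A f g hg hfA
  obtain ⟨G, ⟨φ, hφ, hGφ⟩, rfl⟩ := hg
  have hN0 : 0 < N := by omega
  -- measurable structures
  letI m1 : MeasurableSpace (Gr k (Fin (N + 1)) 1) := borel _
  haveI b1 : BorelSpace (Gr k (Fin (N + 1)) 1) := ⟨rfl⟩
  letI m2 : MeasurableSpace (Gr k (Fin (N + 1)) 2) := borel _
  haveI b2 : BorelSpace (Gr k (Fin (N + 1)) 2) := ⟨rfl⟩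
  letI m3 : MeasurableSpace (ℙ k (Fin (N + 1) → k)) := borel _
  haveI b3 : BorelSpace (ℙ k (Fin (N + 1) → k)) := ⟨rfl⟩
  letI m4 : MeasurableSpace (ℙ k (Fin (N + 1) × Fin (N + 1) → k)) := borel _
  haveI b4 : BorelSpace (ℙ k (Fin (N + 1) × Fin (N + 1) → k)) := ⟨rfl⟩
  -- sections
  obtain ⟨σ, hσm, hσn, hσ⟩ := hs (Fin (N + 1))
  obtain ⟨τ, hτm, hτn, hτ⟩ := hs (Fin (N + 1) × Fin (N + 1))
  set s1 : Gr k (Fin (N + 1)) 1 → Fin (N + 1) → k := fun x => σ (p1H.symm x) with hs1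
  set p2 : Gr k (Fin (N + 1)) 2 → Fin (N + 1) × Fin (N + 1) → k := fun y => τ (plk y) with hp2
  have hs1m : Measurable s1 := hσm.comp p1H.symm.continuous.measurable
  have hp2m : Measurable p2 := hτm.comp plk_cont.measurable
  have hs1x : ∀ x : Gr k (Fin (N + 1)) 1, ∃ h : s1 x ≠ 0,
      p1 (Projectivization.mk k (s1 x) h) = x := by
    intro x
    obtain ⟨h, e⟩ := hσ (p1H.symm x)
    exact ⟨h, by rw [e]; exact p1H.apply_symm_apply x⟩
  have hp2y : ∀ y : Gr k (Fin (N + 1)) 2, ∃ h : p2 y ≠ 0,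
      plk y = Projectivization.mk k (p2 y) h := by
    intro y
    obtain ⟨h, e⟩ := hτ (plk y)
    exact ⟨h, e.symm⟩
  -- geometry
  have hY₀ : IsClosed ((p1 : YY k N → Gr k (Fin (N + 1)) 1) ⁻¹' tsupport f) :=
    (isClosed_tsupport _).preimage p1_cont
  obtain ⟨T₁, hT₁, C₀, hC₀, hnf⟩ := nfsl (m := N) (Fintype.card_fin _) hN0 R hY₀ (A := A)
    (fun x hx p hp ho => hfA x hx (p1 p) hp (p1_le_hyp.2 ho))
  obtain ⟨T₂, hT₂, hcap⟩ := cap_shell (Γ := Γ) (m := N) (Fintype.card_fin _) hN0 (A := A) (fp f)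
    (fun x hx p hp ho => hfA x hx (p1 p) (tsupport_fp f hp)
      (p1_le_hyp.2 ((Projectivization.orthogonal_comm).1 ho)))
  obtain ⟨Nc, hNc0, hcapR⟩ := hcap (max T₁ T₂) (le_max_right _ _) (fun γ => ct (q γ)) Z hud R
  obtain ⟨C, hC, hk2⟩ := hk (ι := Fin (N + 1)) K (hφ K) (2 * C₀) (by linarith)
  obtain ⟨s₀, hs₀⟩ := exists_shell (N := N) C₀ hC₀
  refine ⟨max T₁ T₂, lt_max_of_lt_left hT₁, C ^ 2 * 16 * Nc, 4, s₀, by positivity, ?_⟩
  intro s i j S hss hS ξ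
  -- the data of the elements
  have hdat : ∀ γ, ∃ (c ϖ : k) (B B' : Matrix (Fin (N + 1)) (Fin (N + 1)) k), γ ∈ S →
      c ≠ 0 ∧ (q γ).1 = c • (B * Dm j (yy (ct (q γ)).1 i j) ϖ) ∧ B' * B = 1 ∧
        (∀ x y, ‖B x y‖ ≤ C₀) ∧ (∀ x y, ‖B' x y‖ ≤ C₀) ∧ ‖ϖ‖ ≤ C₀ * rr N s ∧
        rr N s ≤ C₀ * ‖ϖ‖ := by
    intro γ
    by_cases hγ : γ ∈ S
    · obtain ⟨h1, h2, h3, h4, h5, h6⟩ := hS γ hγ
      obtain ⟨⟨c, ϖ, B, B', a1, a2, a3, a4, a5, a6, a7, a8, a9, a10, a11⟩, -⟩ :=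
        hnf (max T₁ T₂) (le_max_left _ _) s (Nat.cast_nonneg _) (q γ) h4 h5 h2 h3 i j h6
      exact ⟨c, ϖ, B, B', fun _ => ⟨a1, a5, a6, a8, a9, a10, a11⟩⟩
    · exact ⟨0, 0, 0, 0, fun h => (hγ h).elim⟩
  choose c ϖ B B' hB using hdat
  have hη : ∀ γ ∈ S, yy (ct (q γ)).1 i j j = 1 ∧ ‖yy (ct (q γ)).1 i j‖ = 1 ∧
      ∀ (x : Fin (N + 1) → k) (hx : x ≠ 0),
        cl ((q γ).1 *ᵥ x) (H835.NF.mulVec_ne_sl (q γ) hx) ∈
          (p1 : YY k N → Gr k (Fin (N + 1)) 1) ⁻¹' tsupport f →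
        x j ≠ 0 ∧ ‖(x j)⁻¹ • x - yy (ct (q γ)).1 i j‖ ≤ 2 * C₀ * rr N s := by
    intro γ hγ
    obtain ⟨h1, h2, h3, h4, h5, h6⟩ := hS γ hγ
    obtain ⟨-, e1, e2, e3⟩ := hnf (max T₁ T₂) (le_max_left _ _) s (Nat.cast_nonneg _) (q γ)
      h4 h5 h2 h3 i j h6
    refine ⟨e1, e2, fun x hx hxY => ?_⟩
    obtain ⟨-, e4⟩ := e3 x hx hxY
    obtain ⟨-, e5, e6⟩ := e4 (hs₀ s hss)
    exact ⟨e5, by rw [mul_assoc]; exact e6⟩
  -- the operators
  have hI1 : IsClosed {x : Gr k (Fin (N + 1)) 1 × Gr k (Fin (N + 1)) 2 | x.1.1 ≤ x.2.1} :=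
    incG_closed
  have hCI : ∀ (x : CG k N 1 →⋆ₐ[ℂ] (K →L[ℂ] K)) (y : CG k N 2 →⋆ₐ[ℂ] (K →L[ℂ] K)), PL x y →
      CI (fun (a : Gr k (Fin (N + 1)) 1) (b : Gr k (Fin (N + 1)) 2) => a.1 ≤ b.1)
        (H466.pv x) (H466.pv y) := fun x y h =>
    H604.pv_CI x y hI1 (fun f g => h.com f g) fun f g hfg => h.inc f g hfg
  have hcapS : Cap S (fun γ => b (actG (q γ)⁻¹ f)) (Real.sqrt Nc) := by
    intro v
    have h1 := hcapR s i j S (fun γ hγ => by
      obtain ⟨h1, h2, h3, h4, h5, h6⟩ := hS γ hγ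
      exact ⟨h1, h2, h3, h4, h5, h6⟩) (fun γ => fp (actG (q γ)⁻¹ f))
      (fun γ hγ x => by
        have e : (taun ((fun γ => ct (q γ)) γ) : GG k N) = q γ := ct_ct' (q γ)
        rw [e]
        change f (((q γ)⁻¹)⁻¹ • p1 x) = f (p1 (q γ • x))
        rw [_root_.inv_inv, p1_smul'])
      K (b.comp (ContinuousMap.compStarAlgHom' ℂ ℂ
        (⟨p1H.symm, p1H.symm.continuous⟩ : C(Gr k (Fin (N + 1)) 1, YY k N)))) v
    rw [Real.sq_sqrt hNc0]
    refine le_trans (le_of_eq ?_) h1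
    refine Finset.sum_congr rfl fun γ _ => ?_
    have e : (ContinuousMap.compStarAlgHom' ℂ ℂ
        (⟨p1H.symm, p1H.symm.continuous⟩ : C(Gr k (Fin (N + 1)) 1, YY k N)))
          (fp (actG (q γ)⁻¹ f)) = actG (q γ)⁻¹ f := by
      ext x
      change (actG (q γ)⁻¹ f) (p1 (p1H.symm x)) = _
      congr 1
      exact p1H.apply_symm_apply x
    change _ = ‖b ((ContinuousMap.compStarAlgHom' ℂ ℂ
        (⟨p1H.symm, p1H.symm.continuous⟩ : C(Gr k (Fin (N + 1)) 1, YY k N)))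
          (fp (actG (q γ)⁻¹ f))) v‖ ^ 2
    rw [e]
  have key := hk2 (Gr k (Fin (N + 1)) 1) (Gr k (Fin (N + 1)) 2) s1 p2 hs1m hp2m
    (fun x => hσn _) (fun y => hτn _)
    (fun y => by
      obtain ⟨h, e⟩ := hp2y y
      exact rep_alt (hω := h) e)
    (fun x y => x.1 ≤ y.1)
    (fun x y hxy => by
      obtain ⟨h, e⟩ := hp2y y
      obtain ⟨h', e'⟩ := hs1x x
      have h3 : Submodule.span k {s1 x} = x.1 := by rw [← H644.Gr3.p1_mk (s1 x) h', e']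
      refine (mem_iff (hω := h) e).1 (hxy ?_)
      rw [← h3]
      exact Submodule.mem_span_singleton_self (R := k) (s1 x))
    (H466.pv b) (H466.pv z) (H466.pv l) (H466.pv ν) (H604.pv_Pv b) (H604.pv_Pv z)
    (H604.pv_Pv l) (H604.pv_Pv ν) (hCI b ν hbν) (hCI z ν hzν) (hCI z l hzl)
    Γ S j (fun γ => yy (ct (q γ)).1 i j) ϖ B B' (rr N s) (H835.NF.rr_pos _ _)
    (H835.NF.rr_le_one _ (Nat.cast_nonneg _)) (fun γ hγ => (hη γ hγ).1)
    (fun γ hγ => by rw [(hη γ hγ).2.1]; linarith)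
    (fun γ hγ => by
      obtain ⟨-, -, -, -, -, h1, h2⟩ := hB γ hγ
      have h3 := H835.NF.rr_pos N s
      have h4 := norm_nonneg (ϖ γ)
      constructor <;> nlinarith)
    (fun γ hγ => (hB γ hγ).2.2.1)
    (fun γ hγ a b => by
      obtain ⟨-, -, -, h1, h2, -⟩ := hB γ hγ
      exact ⟨(h1 a b).trans (by linarith), (h2 a b).trans (by linarith)⟩)
    (fun γ => tsupport (actG (q γ)⁻¹ f)) (fun γ _ => (isClosed_tsupport _).measurableSet)
    (fun γ hγ x hx => by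
      obtain ⟨h', e'⟩ := hs1x x
      have h1 := (hη γ hγ).2.2 (s1 x) h' (by
        rw [Set.mem_preimage]
        have h2 := tsupport_act (q γ) f hx
        have h3 : p1 (cl ((q γ).1 *ᵥ s1 x) (H835.NF.mulVec_ne_sl (q γ) h')) = q γ • x := by
          conv_rhs => rw [← e']
          rw [← p1_smul']
          rfl
        rw [h3]
        exact h2)
      exact h1)
    (fun γ hγ => by
      have h1 : {y : Gr k (Fin (N + 1)) 2 | ∃ x ∈ tsupport (actG (q γ)⁻¹ f), x.1 ≤ y.1} =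
          Prod.snd '' ({x : Gr k (Fin (N + 1)) 1 × Gr k (Fin (N + 1)) 2 | x.1.1 ≤ x.2.1} ∩
            (Prod.fst ⁻¹' tsupport (actG (q γ)⁻¹ f))) := by
        ext y
        constructor
        · rintro ⟨x, hx, hxy⟩
          exact ⟨(x, y), ⟨hxy, hx⟩, rfl⟩
        · rintro ⟨⟨x, y'⟩, ⟨hxy, hx⟩, rfl⟩
          exact ⟨x, hx, hxy⟩
      rw [h1]
      exact (isClosedMap_snd_of_compactSpace _ (hI1.inter
        ((isClosed_tsupport _).preimage continuous_fst))).measurableSet)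
    (fun γ => b (actG (q γ)⁻¹ f)) (fun γ => l (actG (q γ)⁻¹ (plH G)))
    (fun γ y => (actG (q γ)⁻¹ (plH G)) y) (Real.sqrt Nc) (Real.sqrt_nonneg _)
    (fun γ _ => H466.phi_pv_supp b (isClosed_tsupport _).measurableSet
      fun x hx => image_eq_zero_of_notMem_tsupport hx)
    (fun γ _ A _ => H466.pv_commute ν (fun g => hbν.com _ g) A)
    hcapS
    (fun γ hγ y => by
      obtain ⟨hc, he, -⟩ := hB γ hγ
      obtain ⟨h, e⟩ := hp2y y
      change G (plk (((q γ)⁻¹)⁻¹ • y)) = _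
      rw [_root_.inv_inv, plk_smul, e]
      have h1 : (lam2 (q γ) • Projectivization.mk k (p2 y) h) =
        Projectivization.mk k (lam2 (q γ) • p2 y) ((smul_ne_zero_iff_ne _).2 h) := rfl
      rw [h1, hGφ, H835.PlGr.lam2_smul, he]
      have h2 : H835.PlF.sq (c γ • (B γ * Dm j (yy (ct (q γ)).1 i j) (ϖ γ))) =
          (c γ * c γ) • H835.PlF.sq (B γ * Dm j (yy (ct (q γ)).1 i j) (ϖ γ)) := sq_smul' _ _
      rw [h2, Matrix.smul_mulVec]
      exact (hφ K).1 _ _ (mul_ne_zero hc hc))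
    (fun γ _ => (ContinuousMap.continuous _).measurable)
    (fun γ _ => ho K _ l _)
    (fun γ _ A _ => H466.pv_commute z (fun g => (hzl.com g _).symm) A)
  have h1 := key ξ
  refine h1.trans ?_
  rw [mul_pow, mul_pow, Real.sq_sqrt hNc0]
  have h2 : (1 + Real.log (1 / rr N s)) ^ 2 ≤ (2 * (1 + (s : ℝ))) ^ 2 := by
    have h3 := log_rr (N := N) (by omega) s
    have h4 : 0 ≤ Real.log (1 / rr N s) := by
      refine Real.log_nonneg ?_
      rw [one_le_div (H835.NF.rr_pos _ _)]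
      exact H835.NF.rr_le_one _ (Nat.cast_nonneg _)
    gcongr
  have h5 : ((1 + Real.log (1 / rr N s)) ^ 2) ^ 2 ≤ 16 * (1 + (s : ℝ)) ^ 4 := by
    calc ((1 + Real.log (1 / rr N s)) ^ 2) ^ 2 ≤ ((2 * (1 + (s : ℝ))) ^ 2) ^ 2 := by gcongr
      _ = _ := by ring
  calc C ^ 2 * ((1 + Real.log (1 / rr N s)) ^ 2) ^ 2 * Nc * ‖ξ‖ ^ 2
      ≤ C ^ 2 * (16 * (1 + (s : ℝ)) ^ 4) * Nc * ‖ξ‖ ^ 2 := by gcongr
    _ = _ := by ring

/-- **[N-K]** `SN.NJBStmt` from `k2`, the sections, the functional calculus and the density. -/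
theorem njb_of_k2 {k : Type} [NontriviallyNormedField k] [ProperSpace k] [MeasurableSpace k]
    [BorelSpace k] (hk : K2Stmt k) (hs : SecStmt k) (ho : OpfStmt)
    (hd : ∀ (β : Type) [Fintype β],
      closure (Submodule.span ℂ (TD k β) : Set C(ℙ k (β → k), ℂ)) = Set.univ) : NJBStmt k :=
  njb_of_shell (sh_of_k2 hk hs ho hd)

end Vale.Agent.P092.H914
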