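import Vale.Agent.P092.H914.NJB
import Vale.Agent.P092.H914.Cl
import Vale.Agent.P092.H44.Sec
import Vale.Agent.P092.H890.Opf
import Vale.Agent.P092.H696.Dns

/-!
P092, TEAM N, block [N-K] (helper914), part 6: `SN.NJBStmt` for every local field from `K2Stmt`.
-/

set_option linter.all false

open Topology MeasureTheory
open scoped LinearAlgebra.Projectivization

namespace Vale.Agent.P092.H914

open Vale.Agent.P092.SN

theorem secStmt (k : Type) [NontriviallyNormedField k] [ProperSpace k] [MeasurableSpace k]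
    [BorelSpace k] : SecStmt k := fun β => H44.exists_sec k β

theorem opfStmt : OpfStmt := H890.Opf.opf_of

theorem td_dense {k : Type} [NontriviallyNormedField k] [ProperSpace k]
    (hk : (∃ τ : k →+* ℂ, ∀ x, ‖τ x‖ = ‖x‖) ∨ IsUltrametricDist k) (β : Type) [Fintype β] :
    closure (Submodule.span ℂ (TD k β) : Set C(ℙ k (β → k), ℂ)) = Set.univ := by
  have h1 : H696.TD k β ⊆ TD k β := fun G ⟨φ, h1, _, h3⟩ => ⟨φ, h1, h3⟩
  have h2 : (Submodule.span ℂ (H696.TD k β) : Set C(ℙ k (β → k), ℂ)) ⊆
      (Submodule.span ℂ (TD k β) : Set C(ℙ k (β → k), ℂ)) := Submodule.span_mono h1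
  have h3 := H696.td_dense (k := k) (β := β) hk
  exact Set.eq_univ_of_univ_subset (h3 ▸ closure_mono h2)

/-- `SN.NJBStmt` from the abstract estimate, every local field -/
theorem njb_of {k : Type} [NontriviallyNormedField k] [ProperSpace k] [MeasurableSpace k]
    [BorelSpace k] (hk : H933.LocK k) (h : K2Stmt k) : NJBStmt k :=
  njb_of_k2 h (secStmt k) opfStmt fun β _ => td_dense (loc_or hk) β

end Vale.Agent.P092.H914
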