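import Vale.Agent.P092.H914.Fin0
import Vale.Agent.P092.H589.K2

/-!
P092, TEAM N, block [N-K] (helper914), end: `SN.NJBStmt` for every local field.
-/

set_option linter.all false

open Topology MeasureTheory

namespace Vale.Agent.P092.H914

open Vale.Agent.P092.SN
open Vale.Agent.P092.H589.K2 (Cells)

theorem k2Stmt {k : Type} [NontriviallyNormedField k] [ProperSpace k] [MeasurableSpace k]
    [BorelSpace k] (cl : Cells k) : K2Stmt k := by
  intro ι _ _ K _ _ _ φ hφ C₁ hC₁
  exact H589.K2.k2 cl hφ C₁ hC₁

/-- **[N-K]**: `SN.NJBStmt` for every local field -/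
theorem njbStmt {k : Type} [NontriviallyNormedField k] [ProperSpace k] (hk : H933.LocK k) :
    NJBStmt k := by
  letI : MeasurableSpace k := borel k
  haveI : BorelSpace k := ⟨rfl⟩
  obtain ⟨cl⟩ := exists_cells (loc_or hk)
  intro N hN
  exact njb_of hk (k2Stmt cl) hN

end Vale.Agent.P092.H914
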