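import Vale.Agent.P092.H87.NGeo3

/-!
P092, TEAM N, block [N-K] (helper914), part 1: summation over shells and pivots, uniformly discrete
families, cardinality of one cell in the uniformly discrete form.
-/

set_option linter.all false

open scoped LinearAlgebra.Projectivization InnerProductSpace
open Matrix Topology

namespace Vale.Agent.P092.H914

open Vale.Agent.P092.H820
open Vale.Agent.P092.H87.N

section shells

variable {k : Type*} [NontriviallyNormedField k] {ι : Type*} [Fintype ι] [DecidableEq ι]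
  {Γ K : Type*} [NormedAddCommGroup K]

lemma sum_biUnion_le' {α β : Type*} [DecidableEq β] (I : Finset α) (t : α → Finset β)
    (f : β → ℝ) (hf : ∀ b, 0 ≤ f b) : ∑ b ∈ I.biUnion t, f b ≤ ∑ a ∈ I, ∑ b ∈ t a, f b := by
  classical
  induction I using Finset.induction_on with
  | empty => simp
  | insert a s ha ih =>
    rw [Finset.biUnion_insert, Finset.sum_insert ha]
    have := Finset.sum_union_inter (s₁ := t a) (s₂ := s.biUnion t) (f := f)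
    have h2 : 0 ≤ ∑ b ∈ t a ∩ s.biUnion t, f b := Finset.sum_nonneg fun b _ => hf b
    linarith

/-- **Summation over shells and pivots.** -/
theorem sum_shells [Nonempty ι] (q : Γ → SpecialLinearGroup ι k) (Φ : Γ → K → ℝ)
    (hΦ : ∀ γ ξ, 0 ≤ Φ γ ξ) (Q : Γ → Prop) (s₀ M₀ : ℕ) {B : ℝ} (hB0 : 0 ≤ B)
    (hB : ∀ γ, Q γ → ∀ ξ, Φ γ ξ ≤ B * ‖ξ‖ ^ 2)
    (h0 : ∀ S : Finset Γ, (∀ γ ∈ S, Q γ ∧ nmn (q γ) ≤ Real.exp s₀) → S.card ≤ M₀)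
    {C : ℝ} (hC : 0 ≤ C) (d : ℕ)
    (h1 : ∀ (s : ℕ) (i j : ι) (S : Finset Γ), s₀ ≤ s → (∀ γ ∈ S, Q γ ∧
      Real.exp s ≤ nmn (q γ) ∧ nmn (q γ) ≤ Real.exp (s + 1) ∧
        ∀ a b, ‖(q γ).1 a b‖ ≤ ‖(q γ).1 i j‖) →
      ∀ ξ, ∑ γ ∈ S, Φ γ ξ ≤ C * (1 + s) ^ d * ‖ξ‖ ^ 2) :
    ∃ C' : ℝ, 0 ≤ C' ∧ ∀ J : ℝ, 0 ≤ J → ∀ S : Finset Γ,
      (∀ γ ∈ S, Q γ ∧ Real.log (nmn (q γ)) ≤ J) →
      ∀ ξ, ∑ γ ∈ S, Φ γ ξ ≤ C' * (1 + J) ^ (d + 1) * ‖ξ‖ ^ 2 := by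
  classical
  refine ⟨M₀ * B + Fintype.card (ι × ι) * C, by positivity, fun J hJ S hS ξ => ?_⟩
  set S₀ := S.filter fun γ => nmn (q γ) ≤ Real.exp s₀ with hS0
  set cell : ℕ → ι × ι → Finset Γ := fun s p =>
    S.filter fun γ => Real.exp s ≤ nmn (q γ) ∧ nmn (q γ) ≤ Real.exp (s + 1) ∧
        ∀ a b, ‖(q γ).1 a b‖ ≤ ‖(q γ).1 p.1 p.2‖ with hcell
  set I := (Finset.range (⌊J⌋₊ + 1)).filter fun s => s₀ ≤ s with hI
  have hcov : S ⊆ S₀ ∪ I.biUnion fun s => Finset.univ.biUnion fun p => cell s p := by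
    intro γ hγ
    rw [Finset.mem_union]
    by_cases h2 : nmn (q γ) ≤ Real.exp s₀
    · exact Or.inl (Finset.mem_filter.2 ⟨hγ, h2⟩)
    · right
      rw [not_le] at h2
      have h3 : 0 < nmn (q γ) := (Real.exp_pos _).trans h2
      have h4 : (s₀ : ℝ) < Real.log (nmn (q γ)) := (Real.lt_log_iff_exp_lt h3).2 h2
      have h5 : 0 ≤ Real.log (nmn (q γ)) := (Nat.cast_nonneg _).trans h4.le
      obtain ⟨i, j, -, hp⟩ := exists_pivn (q γ)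
      refine Finset.mem_biUnion.2 ⟨⌊Real.log (nmn (q γ))⌋₊, ?_, Finset.mem_biUnion.2 ⟨(i, j),
        Finset.mem_univ _, Finset.mem_filter.2 ⟨hγ, ?_, ?_, hp⟩⟩⟩
      · rw [hI, Finset.mem_filter, Finset.mem_range, Nat.lt_succ_iff]
        exact ⟨Nat.floor_le_floor (hS γ hγ).2, Nat.le_floor h4.le⟩
      · rw [← Real.le_log_iff_exp_le h3]
        exact Nat.floor_le h5
      · rw [← Real.log_le_iff_le_exp h3]
        exact (Nat.lt_floor_add_one _).le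
  have hξ : 0 ≤ ‖ξ‖ ^ 2 := by positivity
  have e0 : ∑ γ ∈ S₀, Φ γ ξ ≤ M₀ * B * ‖ξ‖ ^ 2 := by
    have h2 : ∑ γ ∈ S₀, Φ γ ξ ≤ ∑ γ ∈ S₀, B * ‖ξ‖ ^ 2 :=
      Finset.sum_le_sum fun γ hγ => hB γ (hS γ (Finset.mem_filter.1 hγ).1).1 ξ
    refine h2.trans ?_
    rw [Finset.sum_const, nsmul_eq_mul]
    have h3 : (S₀.card : ℝ) ≤ M₀ := by
      exact_mod_cast h0 S₀ fun γ hγ =>
        ⟨(hS γ (Finset.mem_filter.1 hγ).1).1, (Finset.mem_filter.1 hγ).2⟩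
    calc (S₀.card : ℝ) * (B * ‖ξ‖ ^ 2) ≤ M₀ * (B * ‖ξ‖ ^ 2) := by gcongr
      _ = _ := by ring
  have e1 : ∀ s ∈ I, ∀ p : ι × ι, ∑ γ ∈ cell s p, Φ γ ξ ≤ C * (1 + J) ^ d * ‖ξ‖ ^ 2 := by
    intro s hs p
    rw [hI, Finset.mem_filter, Finset.mem_range, Nat.lt_succ_iff] at hs
    have h2 := h1 s p.1 p.2 (cell s p) hs.2 (fun γ hγ => by
      obtain ⟨h2, h3⟩ := Finset.mem_filter.1 hγ
      exact ⟨(hS γ h2).1, h3⟩) ξ
    have h3 : (s : ℝ) ≤ J := (Nat.le_floor_iff hJ).1 hs.1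
    refine h2.trans ?_
    gcongr
  have e2 : ∑ γ ∈ I.biUnion fun s => Finset.univ.biUnion fun p => cell s p, Φ γ ξ ≤
      (1 + J) * (Fintype.card (ι × ι) * (C * (1 + J) ^ d * ‖ξ‖ ^ 2)) := by
    have h2 : ∑ γ ∈ I.biUnion fun s => Finset.univ.biUnion fun p => cell s p, Φ γ ξ ≤
        ∑ s ∈ I, ∑ p : ι × ι, ∑ γ ∈ cell s p, Φ γ ξ := by
      refine (sum_biUnion_le' _ _ _ fun γ => hΦ γ ξ).trans ?_
      exact Finset.sum_le_sum fun s _ => sum_biUnion_le' _ _ _ fun γ => hΦ γ ξ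
    refine h2.trans ?_
    have h3 : ∀ s ∈ I, ∑ p : ι × ι, ∑ γ ∈ cell s p, Φ γ ξ ≤
        Fintype.card (ι × ι) * (C * (1 + J) ^ d * ‖ξ‖ ^ 2) := fun s hs => by
      refine (Finset.sum_le_sum fun p _ => e1 s hs p).trans ?_
      rw [Finset.sum_const, nsmul_eq_mul, Finset.card_univ]
    refine (Finset.sum_le_sum h3).trans ?_
    rw [Finset.sum_const, nsmul_eq_mul]
    have h4 : (I.card : ℝ) ≤ 1 + J := by
      have h5 : I.card ≤ ⌊J⌋₊ + 1 := by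
        rw [hI]
        exact (Finset.card_filter_le _ _).trans (by rw [Finset.card_range])
      have h6 : (I.card : ℝ) ≤ ⌊J⌋₊ + 1 := by exact_mod_cast h5
      linarith [Nat.floor_le hJ]
    gcongr
  have e3 : ∑ γ ∈ S, Φ γ ξ ≤ ∑ γ ∈ S₀, Φ γ ξ +
      ∑ γ ∈ I.biUnion fun s => Finset.univ.biUnion fun p => cell s p, Φ γ ξ := by
    refine (Finset.sum_le_sum_of_subset_of_nonneg hcov fun γ _ _ => hΦ γ ξ).trans ?_
    have := Finset.sum_union_inter (s₁ := S₀)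
      (s₂ := I.biUnion fun s => Finset.univ.biUnion fun p => cell s p) (f := fun γ => Φ γ ξ)
    have h2 : 0 ≤ ∑ γ ∈ S₀ ∩ I.biUnion fun s => Finset.univ.biUnion fun p => cell s p, Φ γ ξ :=
      Finset.sum_nonneg fun γ _ => hΦ γ ξ
    linarith
  have e4 : (1 : ℝ) ≤ (1 + J) ^ (d + 1) := one_le_pow₀ (by linarith)
  have e5 : M₀ * B * ‖ξ‖ ^ 2 ≤ M₀ * B * ‖ξ‖ ^ 2 * (1 + J) ^ (d + 1) :=
    le_mul_of_one_le_right (by positivity) e4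
  calc _ ≤ _ := e3
    _ ≤ M₀ * B * ‖ξ‖ ^ 2 + (1 + J) * (Fintype.card (ι × ι) * (C * (1 + J) ^ d * ‖ξ‖ ^ 2)) :=
        add_le_add e0 e2
    _ ≤ M₀ * B * ‖ξ‖ ^ 2 * (1 + J) ^ (d + 1) +
        (1 + J) * (Fintype.card (ι × ι) * (C * (1 + J) ^ d * ‖ξ‖ ^ 2)) := by linarith
    _ = _ := by ring

end shells

end Vale.Agent.P092.H914
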