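import Vale.Agent.P092.H914.Shell
import Vale.Agent.P092.H596.N.CapN

/-!
P092, TEAM N, block [N-K] (helper914), part 2: capacity of one shell and one pivot for a uniformly
discrete family of near-wall elements (no group structure on the index set), operator form.
-/

set_option linter.all false

open scoped LinearAlgebra.Projectivization InnerProductSpace
open Matrix Topology

namespace Vale.Agent.P092.H914

open Vale.Agent.P092.H820
open Vale.Agent.P092.H87.N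
open Vale.Agent.P092.H596.N (incn incn_iff incn_closed exists_room)

section ud

variable {k : Type*} [NontriviallyNormedField k] {ι : Type*} [Fintype ι] [DecidableEq ι]
  {Γ : Type*}

/-- `Z ⊆ Γ` is uniformly discrete under `p` (only `p γ' * (p γ)⁻¹` is counted) -/
def UDn (p : Γ → SpecialLinearGroup ι k) (Z : Set Γ) : Prop :=
  ∀ C : ℝ, ∃ M : ℕ, ∀ S : Finset Γ, (∀ γ ∈ S, γ ∈ Z) →
    (∀ γ ∈ S, ∀ γ' ∈ S, nmn (p γ' * (p γ)⁻¹) ≤ C) → S.card ≤ M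

theorem udn_of_hom [Group Γ] (q : Γ →* SpecialLinearGroup ι k)
    (hfin : ∀ R : ℝ, {γ | nmn (q γ) ≤ R}.Finite) (Z : Set Γ) : UDn (fun γ => q γ) Z := by
  classical
  intro C
  refine ⟨(hfin C).toFinset.card, fun S _ h => ?_⟩
  rcases S.eq_empty_or_nonempty with rfl | ⟨g0, hg0⟩
  · exact Nat.zero_le _
  refine Finset.card_le_card_of_injOn (fun g => g * g0⁻¹) ?_
    fun a _ b _ hab => mul_right_cancel hab
  intro g hg
  simp only [Set.Finite.coe_toFinset]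
  change nmn (q (g * g0⁻¹)) ≤ _
  rw [map_mul, map_inv]
  exact h g0 hg0 g (Finset.mem_coe.mp hg)

lemma taun_mul_inv (x y : SpecialLinearGroup ι k) : taun x * (taun y)⁻¹ = taun (x * y⁻¹) := by
  have h1 : ∀ a b : SpecialLinearGroup ι k, taun (a * b) = taun a * taun b := by
    intro a b
    apply Subtype.ext
    change ((a * b)⁻¹).1.transpose = (a⁻¹).1.transpose * (b⁻¹).1.transpose
    rw [_root_.mul_inv_rev, Matrix.SpecialLinearGroup.coe_mul, Matrix.transpose_mul]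
  have h2 : taun (1 : SpecialLinearGroup ι k) = 1 := by
    apply Subtype.ext
    change ((1 : SpecialLinearGroup ι k)⁻¹).1.transpose = _
    simp
  have h3 : (taun y)⁻¹ = taun y⁻¹ := by
    rw [inv_eq_iff_mul_eq_one, ← h1, mul_inv_cancel, h2]
  rw [h3, h1]

lemma nmn_taun (x : SpecialLinearGroup ι k) : nmn (taun x) = nmn x⁻¹ := by
  apply le_antisymm
  · exact nmn_le (nmn_nonneg _) fun a b => entry_le x⁻¹ b a
  · exact nmn_le (nmn_nonneg _) fun a b => entry_le (taun x) b a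

/-- uniform discreteness is the same for the dual picture -/
theorem udn_taun {p : Γ → SpecialLinearGroup ι k} {Z : Set Γ} (h : UDn p Z) :
    UDn (fun γ => taun (p γ)) Z := by
  intro C
  obtain ⟨M, hM⟩ := h C
  refine ⟨M, fun S hS hC => hM S hS fun γ hγ γ' hγ' => ?_⟩
  have h1 := hC γ' hγ' γ hγ
  simp only at h1
  rw [taun_mul_inv, nmn_taun, _root_.mul_inv_rev, _root_.inv_inv] at h1
  exact h1

/-- **Capacity of a cell.** -/
theorem cell_card_ud {p : Γ → SpecialLinearGroup ι k} {Z : Set Γ} (hud : UDn p Z) {C D : ℝ}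
    (hC : 1 ≤ C) (hD : 1 ≤ D) :
    ∃ N : ℕ, ∀ (a b : ℝ) (i j : ι) (y : ι → k) (S : Finset Γ), ‖y‖ = 1 →
      (∀ γ ∈ S, γ ∈ Z ∧ NWn C a b (p γ).1 ((p γ)⁻¹).1 i j ∧
        ‖wd y (yy (p γ).1 i j)‖ ≤ D / (a * b)) → S.card ≤ N := by
  obtain ⟨N, hN⟩ := hud (3 * cn ι * C ^ 2 * (3 * D))
  refine ⟨N, fun a b i j y S hy hS => hN S (fun γ hγ => (hS γ hγ).1) fun γ hγ γ' hγ' => ?_⟩
  obtain ⟨-, h1, h2⟩ := hS γ hγ
  obtain ⟨-, h3, h4⟩ := hS γ' hγ'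
  have hn := cn_nonneg (ι := ι)
  refine nmn_le (by positivity) fun x z => ?_
  have h5 := wd_trans_n hy h3.yy_norm.le h1.yy_norm.le h4 h2
  refine cap h1 h3 (by linarith) ((yy_sub_le h1 h3).trans ?_) x z
  rw [mul_div_assoc]
  exact h5

/-- elements of bounded size -/
theorem ball_card_ud {p : Γ → SpecialLinearGroup ι k} {Z : Set Γ} (hud : UDn p Z) (R : ℝ) :
    ∃ N : ℕ, ∀ S : Finset Γ, (∀ γ ∈ S, γ ∈ Z ∧ nmn (p γ) ≤ R ∧ nmn (p γ)⁻¹ ≤ R) →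
      S.card ≤ N := by
  obtain ⟨N, hN⟩ := hud (cn ι * (|R| * |R|))
  refine ⟨N, fun S hS => hN S (fun γ hγ => (hS γ hγ).1) fun γ hγ γ' hγ' => ?_⟩
  have hn := cn_nonneg (ι := ι)
  refine nmn_le (by positivity) fun x z => ?_
  rw [Matrix.SpecialLinearGroup.coe_mul, Matrix.mul_apply]
  refine (norm_sum_le _ _).trans ?_
  have h1 : ∀ y ∈ Finset.univ, ‖(p γ').1 x y * ((p γ)⁻¹).1 y z‖ ≤ |R| * |R| := by
    intro y _
    rw [norm_mul]
    exact mul_le_mul (((entry_le _ _ _).trans (hS γ' hγ').2.1).trans (le_abs_self R))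
      (((entry_le _ _ _).trans (hS γ hγ).2.2).trans (le_abs_self R)) (norm_nonneg _)
      (abs_nonneg _)
  refine (Finset.sum_le_sum h1).trans ?_
  rw [Finset.sum_const, Finset.card_univ, nsmul_eq_mul]
  rfl

end ud

section cap

variable {k : Type*} [NontriviallyNormedField k] [ProperSpace k] {ι : Type*} [Fintype ι]
  [DecidableEq ι] {Γ : Type*}

/-- the elements of one shell with one pivot -/
def Sh (p : Γ → SpecialLinearGroup ι k) (R : ℝ) (m s : ℕ) (i j : ι) (γ : Γ) : Prop :=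
  nmn (p γ)⁻¹ ^ m ≤ R * nmn (p γ) ∧ Real.exp s ≤ nmn (p γ) ∧ nmn (p γ) ≤ Real.exp (s + 1) ∧
    ∀ a b, ‖(p γ).1 a b‖ ≤ ‖(p γ).1 i j‖

/-- **Localisation**: near-wall elements with attracting point in `A` move only the hyperplanes
close to the repelling one off a neighbourhood of `A`. -/
theorem shell_disc {m : ℕ} (hm : Fintype.card ι = m + 1) (hm0 : 0 < m)
    {A B : Set (ℙ k (ι → k))} (hA : IsClosed A) (hB : IsClosed B)
    (h : ∀ x ∈ A, ∀ l ∈ B, (x, l) ∉ incn k ι) :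
    ∃ T₀ : ℝ, 0 < T₀ ∧ ∀ T ≥ T₀, ∀ R : ℝ, ∃ D : ℝ, 1 ≤ D ∧ ∀ (g : SpecialLinearGroup ι k)
      (s : ℝ) (i j : ι), nmn g⁻¹ ^ m ≤ R * nmn g → Attn T A g → Real.exp s ≤ nmn g →
      nmn g ≤ Real.exp (s + 1) → (∀ a b, ‖g.1 a b‖ ≤ ‖g.1 i j‖) →
      ∀ (v : ι → k) (hv : v ≠ 0), taun g • cl v hv ∈ B →
        ‖wd v (yy g.1 i j)‖ ≤ D / (Real.exp s * Real.exp (s / m)) * ‖v‖ := by
  obtain ⟨V, hV, hAV, hVB⟩ := exists_room hA hB h
  obtain ⟨T₀, hT₀, hatt⟩ := att_xp_n hA hV hAV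
  refine ⟨T₀, hT₀, fun T hT R => ?_⟩
  obtain ⟨D, hD, hdisc⟩ := geo_disc (U := closure V) (A := B) isClosed_closure hB
    (fun u l hu hl h1 h2 h3 => hVB _ h1 _ h2 ((incn_iff ⟨u, hu⟩ ⟨l, hl⟩).2 h3)) (KR m R)
  refine ⟨D, hD, fun g s i j h1 h2 h3 h4 h5 v hv h6 => ?_⟩
  have H := nwn_sh hm hm0 h3 h4 h1 h5
  obtain ⟨l, hl, e1, e2, e3⟩ := taun_line g v hv
  rw [e1] at h6
  exact hdisc _ _ _ _ i j H (subset_closure (hatt T hT _ _ _ _ i j H h2)) v hv (by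
      have e4 : cl (v ᵥ* (g⁻¹).1) (vecMul_ne' H hv) = cl l hl := by
        subst e3
        rfl
      rw [e4]
      exact h6)

/-- **Capacity of one shell and one pivot, operator form.** `F γ = f ∘ taun (p γ)`. -/
theorem cap_shell {m : ℕ} (hm : Fintype.card ι = m + 1) (hm0 : 0 < m)
    {A : Set (ℙ k (ι → k))} (f : C(ℙ k (ι → k), ℂ))
    (h : ∀ x ∈ closure A, ∀ l ∈ tsupport f, (x, l) ∉ incn k ι) :
    ∃ T₀ : ℝ, 0 < T₀ ∧ ∀ T ≥ T₀, ∀ (p : Γ → SpecialLinearGroup ι k) (Z : Set Γ), UDn p Z →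
      ∀ R : ℝ, ∃ N : ℝ, 0 ≤ N ∧ ∀ (s : ℝ) (i j : ι) (S : Finset Γ),
      (∀ γ ∈ S, γ ∈ Z ∧ nmn (p γ)⁻¹ ^ m ≤ R * nmn (p γ) ∧ Attn T A (p γ) ∧
        Real.exp s ≤ nmn (p γ) ∧ nmn (p γ) ≤ Real.exp (s + 1) ∧
        ∀ a b, ‖(p γ).1 a b‖ ≤ ‖(p γ).1 i j‖) →
      ∀ (F : Γ → C(ℙ k (ι → k), ℂ)), (∀ γ ∈ S, ∀ x, F γ x = f (taun (p γ) • x)) →
      ∀ (K : Type) [NormedAddCommGroup K] [InnerProductSpace ℂ K] [CompleteSpace K]
        (β : C(ℙ k (ι → k), ℂ) →⋆ₐ[ℂ] (K →L[ℂ] K)) (ξ : K),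
        ∑ γ ∈ S, ‖β (F γ) ξ‖ ^ 2 ≤ N * ‖ξ‖ ^ 2 := by
  classical
  obtain ⟨T₀, hT₀, hd⟩ := shell_disc hm hm0 (A := closure A) isClosed_closure
    (isClosed_tsupport (f : ℙ k (ι → k) → ℂ)) h
  refine ⟨T₀, hT₀, fun T hT p Z hud R => ?_⟩
  obtain ⟨D, hD, hdisc⟩ := hd T hT R
  obtain ⟨N, hN⟩ := cell_card_ud hud (one_le_KR m R) hD
  refine ⟨N * ‖f‖ ^ 2, by positivity, fun s i j S hS F hF K _ _ _ β ξ => ?_⟩
  refine H218.sum_sq_le β S F (by positivity) (fun x => ?_) ξ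
  have hcard : (S.filter fun γ => taun (p γ) • x ∈ tsupport f).card ≤ N := by
    obtain ⟨⟨v, hv⟩, rfl⟩ := pj_surj x
    obtain ⟨c, hc, hcv⟩ := exists_norm_one v hv
    have hcv0 : c • v ≠ 0 := smul_ne_zero hc hv
    have ex : pj k ι ⟨v, hv⟩ = cl (c • v) hcv0 := (cl_smul hv hc).symm
    refine hN (Real.exp s) (Real.exp (s / m)) i j (c • v) _ hcv fun γ hγ => ?_
    obtain ⟨h1, h2⟩ := Finset.mem_filter.1 hγ
    obtain ⟨a0, a1, ⟨v', φ, hv', hvA, hφ⟩, a3, a4, a5⟩ := hS γ h1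
    refine ⟨a0, nwn_sh hm hm0 a3 a4 a1 a5, ?_⟩
    rw [ex] at h2
    have h3 := hdisc (p γ) s i j a1 ⟨v', φ, hv', subset_closure hvA, hφ⟩ a3 a4 a5 (c • v) hcv0 h2
    rwa [hcv, mul_one] at h3
  have hsum : ∑ γ ∈ S, ‖F γ x‖ ^ 2 ≤
      ∑ γ ∈ S.filter (fun γ => taun (p γ) • x ∈ tsupport f), ‖f‖ ^ 2 := by
    rw [Finset.sum_filter]
    refine Finset.sum_le_sum fun γ hγ => ?_
    rw [hF γ hγ x]
    split_ifs with hc
    · exact pow_le_pow_left₀ (norm_nonneg _) (f.norm_coe_le_norm _) 2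
    · rw [image_eq_zero_of_notMem_tsupport hc, norm_zero, zero_pow two_ne_zero]
  refine hsum.trans ?_
  rw [Finset.sum_const, nsmul_eq_mul]
  have h5 : ((S.filter fun γ => taun (p γ) • x ∈ tsupport f).card : ℝ) ≤ N := by
    exact_mod_cast hcard
  gcongr

end cap

end Vale.Agent.P092.H914
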