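import Vale.Agent.P092.SN.Blocks
import Vale.Agent.P092.H914.CapU

/-!
P092, TEAM N, block [N-K] (helper914), part 3: `SN.NJBStmt` from the estimate for one shell and one
pivot; `loc_of_shell` is the local form (fixed calculi `b`, `l`).
-/

set_option linter.all false

open scoped InnerProductSpace ENNReal LinearAlgebra.Projectivization ZeroAtInfty
open Filter Topology ContinuousLinearMap MeasureTheory TopologicalSpace

namespace Vale.Agent.P092.H914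

open Vale.Agent.P092.SN
open Vale.Agent.P092.RC (Cm TRN Moore GG PG YY y0 ct)
open Vale.Agent.P092.H100.Gr (Gr)
open Vale.Agent.P092.H644.Gr3 (p1 hyp)
open Vale.Agent.P092.H87.N (nmn Attn)

/-- The estimate for one shell and one pivot. The conditions are on `ct (q γ)` (dual picture). -/
def ShStmt (k : Type) [NontriviallyNormedField k] [ProperSpace k] : Prop :=
  ∀ {N : ℕ}, 2 ≤ N → ∃ D : Set (CG k N 2), closure (Submodule.span ℂ D : Set (CG k N 2)) = Set.univ ∧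
  ∀ {Γ K : Type} [NormedAddCommGroup K] [InnerProductSpace ℂ K] [CompleteSpace K]
    (q : Γ → GG k N) (Z : Set Γ), UDn (fun γ => ct (q γ)) Z →
    ∀ (b z : CG k N 1 →⋆ₐ[ℂ] (K →L[ℂ] K)) (l ν : CG k N 2 →⋆ₐ[ℂ] (K →L[ℂ] K)),
      PL z l → PL z ν → PL b ν →
    ∀ (R : ℝ) (A : Set (YY k N)) (f : CG k N 1) (g : CG k N 2), g ∈ D →
      (∀ M ∈ closure A, ∀ x ∈ tsupport f, ¬ x.1 ≤ (hyp M).1) →
      ∃ T > 0, ∃ (C : ℝ) (d s₀ : ℕ), 0 ≤ C ∧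
        ∀ (s : ℕ) (i j : Fin (N + 1)) (S : Finset Γ), s₀ ≤ s →
        (∀ γ ∈ S, γ ∈ Z ∧ NW R (ct (q γ)) ∧ Att T A (ct (q γ)) ∧
          Real.exp s ≤ nm (ct (q γ)) ∧ nm (ct (q γ)) ≤ Real.exp (s + 1) ∧
          ∀ a b, ‖(ct (q γ)).1 a b‖ ≤ ‖(ct (q γ)).1 i j‖) →
        ∀ ξ : K, ∑ γ ∈ S, ‖b (actG (q γ)⁻¹ f) (l (actG (q γ)⁻¹ g) ξ)‖ ^ 2 ≤
          C * (1 + s) ^ d * ‖ξ‖ ^ 2

theorem norm_actG_le {k : Type} [NontriviallyNormedField k] [ProperSpace k] {N j : ℕ}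
    (g : GG k N) (f : CG k N j) : ‖actG g f‖ ≤ ‖f‖ :=
  (ContinuousMap.norm_le _ (norm_nonneg _)).2 fun _ => f.norm_coe_le_norm _

/-- **The local form**: for fixed `b`, `l`, `R`, `A`, `f`, `g`, the estimate for one shell and one
pivot gives the conclusion of `SN.NJBStmt`. -/
theorem loc_of_shell {k : Type} [NontriviallyNormedField k] [ProperSpace k] {N : ℕ} (hN : 2 ≤ N)
    {Γ K : Type} [NormedAddCommGroup K] [InnerProductSpace ℂ K] [CompleteSpace K]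
    (q : Γ → GG k N) (Z : ℝ → Set Γ) (hZ : ∀ R, UD q (Z R))
    (b : CG k N 1 →⋆ₐ[ℂ] (K →L[ℂ] K)) (l : CG k N 2 →⋆ₐ[ℂ] (K →L[ℂ] K))
    (R : ℝ) (A : Set (YY k N)) (f : CG k N 1) (g : CG k N 2)
    (h : ∃ T > 0, ∃ (C : ℝ) (d s₀ : ℕ), 0 ≤ C ∧
        ∀ (s : ℕ) (i j : Fin (N + 1)) (S : Finset Γ), s₀ ≤ s →
        (∀ γ ∈ S, γ ∈ Z R ∧ NW R (ct (q γ)) ∧ Att T A (ct (q γ)) ∧
          Real.exp s ≤ nm (ct (q γ)) ∧ nm (ct (q γ)) ≤ Real.exp (s + 1) ∧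
          ∀ a b, ‖(ct (q γ)).1 a b‖ ≤ ‖(ct (q γ)).1 i j‖) →
        ∀ ξ : K, ∑ γ ∈ S, ‖b (actG (q γ)⁻¹ f) (l (actG (q γ)⁻¹ g) ξ)‖ ^ 2 ≤
          C * (1 + s) ^ d * ‖ξ‖ ^ 2) :
    ∃ T > 0, ∃ (C : ℝ) (d : ℕ), ∀ J : ℝ, 0 ≤ J → ∀ S : Finset Γ,
        (∀ γ ∈ S, γ ∈ NWA (fun γ => ct (q γ)) Z R T A ∧ Real.log (nm (ct (q γ))) ≤ J) →
        ∀ ξ : K, ∑ γ ∈ S, ‖b (actG (q γ)⁻¹ f) (l (actG (q γ)⁻¹ g) ξ)‖ ^ 2 ≤
          C * (1 + J) ^ d * ‖ξ‖ ^ 2 := by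
  classical
  have hud : UDn (fun γ => ct (q γ)) (Z R) := H914.udn_taun (hZ R)
  obtain ⟨T, hT, C, d, s₀, hC, h⟩ := h
  obtain ⟨M₀, hM₀⟩ := ball_card_ud hud (Real.exp s₀ + (1 + |R| * Real.exp s₀))
  have hNpos : N ≠ 0 := by omega
  obtain ⟨C', hC', hsum⟩ := sum_shells (fun γ => ct (q γ))
    (fun γ (ξ : K) => ‖b (actG (q γ)⁻¹ f) (l (actG (q γ)⁻¹ g) ξ)‖ ^ 2)
    (fun γ ξ => sq_nonneg _) (fun γ => γ ∈ Z R ∧ NW R (ct (q γ)) ∧ Att T A (ct (q γ)))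
    s₀ M₀ (B := (‖f‖ * ‖g‖) ^ 2) (sq_nonneg _)
    (by
      intro γ _ ξ
      rw [← mul_pow]
      refine pow_le_pow_left₀ (norm_nonneg _) ?_ 2
      have h1 : ‖b (actG (q γ)⁻¹ f)‖ ≤ ‖f‖ :=
        (NonUnitalStarAlgHom.norm_apply_le b _).trans (norm_actG_le _ _)
      have h2 : ‖l (actG (q γ)⁻¹ g)‖ ≤ ‖g‖ :=
        (NonUnitalStarAlgHom.norm_apply_le l _).trans (norm_actG_le _ _)
      calc _ ≤ ‖b (actG (q γ)⁻¹ f)‖ * ‖l (actG (q γ)⁻¹ g) ξ‖ :=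
            ContinuousLinearMap.le_opNorm _ _
        _ ≤ ‖f‖ * (‖g‖ * ‖ξ‖) := by
            refine mul_le_mul h1 ?_ (norm_nonneg _) (norm_nonneg _)
            exact (ContinuousLinearMap.le_opNorm _ _).trans
              (mul_le_mul_of_nonneg_right h2 (norm_nonneg _))
        _ = _ := by ring)
    (by
      intro S hS
      refine hM₀ S fun γ hγ => ?_
      obtain ⟨⟨h1, h2, h3⟩, h4⟩ := hS γ hγ
      have hR : 0 ≤ |R| * Real.exp s₀ := by positivity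
      refine ⟨h1, h4.trans (by linarith), ?_⟩
      have h5 : nmn (ct (q γ))⁻¹ ^ N ≤ |R| * Real.exp s₀ :=
        h2.trans ((mul_le_mul_of_nonneg_right (le_abs_self R) (norm_nonneg _)).trans
          (mul_le_mul_of_nonneg_left h4 (abs_nonneg R)))
      have h6 : nmn (ct (q γ))⁻¹ ^ N ≤ (1 + |R| * Real.exp s₀) ^ N := by
        refine h5.trans ?_
        calc |R| * Real.exp s₀ ≤ (1 + |R| * Real.exp s₀) ^ 1 := by rw [pow_one]; linarith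
          _ ≤ _ := pow_le_pow_right₀ (by linarith) (by omega)
      exact (le_of_pow_le_pow_left₀ hNpos (by positivity) h6).trans
        (by linarith [Real.exp_pos (s₀ : ℝ)]))
    hC d
    (by
      intro s i j S hs hS ξ
      exact h s i j S hs (fun γ hγ => by
        obtain ⟨⟨h1, h2, h3⟩, h4, h5, h6⟩ := hS γ hγ
        exact ⟨h1, h2, h3, h4, h5, h6⟩) ξ)
  refine ⟨T, hT, C', d + 1, fun J hJ S hS ξ => ?_⟩
  exact hsum J hJ S (fun γ hγ => ⟨(hS γ hγ).1, (hS γ hγ).2⟩) ξ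

theorem njb_of_shell {k : Type} [NontriviallyNormedField k] [ProperSpace k]
    (h : ShStmt k) : NJBStmt k := by
  intro N hN
  obtain ⟨D, hD, h⟩ := h hN
  refine ⟨D, hD, ?_⟩
  intro Γ K _ _ _ _ q Z hZ b z l ν hzl hzν hbν R A f g hg hfA
  exact loc_of_shell hN q Z hZ b l R A f g
    (h q (Z R) (H914.udn_taun (hZ R)) b z l ν hzl hzν hbν R A f g hg hfA)

end Vale.Agent.P092.H914
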